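import Vale.Agent.P144D.I.N1.Harn

/-!
The Harnack inequality along a segment and the lemma of Hopf.
-/

namespace Vale.Agent.P144Z

open Finset

namespace IN1

theorem zd_le_of {v p : ℤ × ℤ} {n : ℕ} (h1 : |(v.1 : ℝ) - p.1| < n + 1)
    (h2 : |(v.2 : ℝ) - p.2| < n + 1) : zd v p ≤ n := by
  have a1 : |v.1 - p.1| < n + 1 := by exact_mod_cast h1
  have a2 : |v.2 - p.2| < n + 1 := by exact_mod_cast h2
  rw [abs_lt] at a1 a2
  simp only [zd]
  omega

theorem abs_le_of {v p : ℤ × ℤ} {n : ℕ} (h : zd v p ≤ n) :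
    |(v.1 : ℝ) - p.1| ≤ n ∧ |(v.2 : ℝ) - p.2| ≤ n := by
  have a : |v.1 - p.1| ≤ n ∧ |v.2 - p.2| ≤ n := by
    simp only [zd] at h
    simp only [abs_le]
    omega
  exact ⟨by exact_mod_cast a.1, by exact_mod_cast a.2⟩

theorem fl_step {d θ s m : ℝ} (hs : 0 ≤ s) (hd : s * |d| ≤ m) :
    |((⌊(θ + s) * d⌋ : ℤ) : ℝ) - ⌊θ * d⌋| < m + 1 := by
  have a1 := Int.floor_le ((θ + s) * d)
  have a2 := Int.lt_floor_add_one ((θ + s) * d)
  have a3 := Int.floor_le (θ * d)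
  have a4 := Int.lt_floor_add_one (θ * d)
  have a5 := mul_le_mul_of_nonneg_left (le_abs_self d) hs
  have a6 := mul_le_mul_of_nonneg_left (neg_abs_le d) hs
  rw [abs_lt]
  constructor <;> nlinarith

end IN1

open IN1 in
/-- The Harnack inequality along a segment. -/
theorem harn_seg (N : ℕ) : ∃ c > (0 : ℝ), c ≤ 1 ∧ ∀ (w : ℤ × ℤ → ℝ) (p x : ℤ × ℤ) (m : ℕ) (A : ℝ),
    0 ≤ A → 1 ≤ m → zd x p ≤ N * m →
    (∀ (v : ℤ × ℤ) (θ : ℝ), 0 ≤ θ → θ ≤ 1 → |v.1 - (p.1 + θ * (x.1 - p.1))| ≤ 3 * m + 1 →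
      |v.2 - (p.2 + θ * (x.2 - p.2))| ≤ 3 * m + 1 → 0 ≤ w v ∧ SupH w v) →
    (∀ v, zd v p ≤ m → A ≤ w v) → ∀ v, zd v x ≤ m → c * A ≤ w v := by
  obtain ⟨c, c0, c1, hc⟩ := harn_chain 2
  refine ⟨c ^ (N + 1), by positivity, pow_le_one₀ c0.le c1, ?_⟩
  intro w p x m A hA hm hx hw h1 v hv
  have hN : (0 : ℝ) < N + 1 := by positivity
  obtain ⟨d1, d2⟩ := abs_le_of hx
  push_cast at d1 d2
  have hm0 : (0 : ℝ) ≤ m := by positivity
  have st : ∀ d : ℝ, |d| ≤ N * m → 1 / (N + 1) * |d| ≤ m := fun d h => by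
    rw [div_mul_eq_mul_div, div_le_iff₀ hN]
    nlinarith
  refine hc w (fun i => (p.1 + ⌊(i : ℝ) / (N + 1) * (x.1 - p.1)⌋,
    p.2 + ⌊(i : ℝ) / (N + 1) * (x.2 - p.2)⌋)) (fun _ => m) (N + 1) A hA (fun _ _ => hm)
    (fun i _ => ?_) (fun i hi u hu => ?_) (fun u hu => h1 u (by simpa using hu)) v ?_
  · have e : ((i + 1 : ℕ) : ℝ) / (N + 1) = i / (N + 1) + 1 / (N + 1) := by push_cast; ring
    have := zd_le_of (n := m)
      (v := (p.1 + ⌊((i + 1 : ℕ) : ℝ) / (N + 1) * (x.1 - p.1)⌋,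
        p.2 + ⌊((i + 1 : ℕ) : ℝ) / (N + 1) * (x.2 - p.2)⌋))
      (p := (p.1 + ⌊(i : ℝ) / (N + 1) * (x.1 - p.1)⌋, p.2 + ⌊(i : ℝ) / (N + 1) * (x.2 - p.2)⌋))
      (by
        rw [e]
        simpa using fl_step (θ := i / (N + 1)) (by positivity) (st _ d1))
      (by
        rw [e]
        simpa using fl_step (θ := i / (N + 1)) (by positivity) (st _ d2))
    omega
  · obtain ⟨a1, a2⟩ := abs_le_of hu
    push_cast at a1 a2
    have hi' : (i : ℝ) ≤ N + 1 := by exact_mod_cast hi.le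
    have b1 := Int.floor_le ((i : ℝ) / (N + 1) * (x.1 - p.1))
    have b2 := Int.lt_floor_add_one ((i : ℝ) / (N + 1) * (x.1 - p.1))
    have b3 := Int.floor_le ((i : ℝ) / (N + 1) * (x.2 - p.2))
    have b4 := Int.lt_floor_add_one ((i : ℝ) / (N + 1) * (x.2 - p.2))
    rw [abs_le] at a1 a2
    refine hw u (i / (N + 1)) (by positivity) ((div_le_one hN).2 hi') ?_ ?_ <;> rw [abs_le] <;>
      constructor <;> linarith [a1.1, a1.2, a2.1, a2.2]
  · have e : ((N + 1 : ℕ) : ℝ) / (N + 1) = 1 := by push_cast; exact div_self hN.ne'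
    simp only [e, one_mul, ← Int.cast_sub, Int.floor_intCast, add_sub_cancel]
    exact hv

namespace IN1

open B1b

/-- The cubic barrier is harmonic. -/
theorem lap_cub (ν : ℂ) (w : ℤ × ℤ → ℝ) (a W E c x y : ℝ) (v : ℤ × ℤ) :
    lap (fun v => a * ((ht ν v - c) * (W + (ht ν v - c) ^ 2 -
      3 * ((v.2 - y) * ν.re - (v.1 - x) * ν.im) ^ 2) - E) - w v) v = -lap w v := by
  simp only [lap, Fin.sum_univ_four, ht_add]
  simp only [st4, ht, Matrix.cons_val_zero, Matrix.cons_val_one, Matrix.cons_val_two,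
    Matrix.cons_val_three, Matrix.tail_cons, Matrix.head_cons, Prod.fst_add, Prod.snd_add]
  push_cast
  ring

theorem bot {m t s t' s' : ℝ} (hm : 1 ≤ m) (h0 : 0 ≤ t) (h : 3 * s ^ 2 < 100 * m ^ 2 + t ^ 2)
    (h1 : t' < 0) (h2 : t - 1 ≤ t') (h3 : -1 ≤ s' - s) (h4 : s' - s ≤ 1) :
    t' * (100 * m ^ 2 + t' ^ 2 - 3 * s' ^ 2) ≤ 100 * m ^ 2 := by
  have t1 : t ^ 2 ≤ 1 := by nlinarith
  have t2 : |s| ≤ 10 * m := abs_le_of_sq_le_sq (by nlinarith) (by positivity)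
  rw [abs_le] at t2
  have s1 : (s' - s) ^ 2 ≤ 1 := by nlinarith
  have s2 : s * (s' - s) ≤ 10 * m := by
    nlinarith [mul_nonneg (sub_nonneg.2 t2.2) (sub_nonneg.2 h3),
      mul_nonneg (sub_nonneg.2 t2.1) (sub_nonneg.2 h4)]
  have t3 : s' ^ 2 ≤ s ^ 2 + 20 * m + 1 := by nlinarith
  have t4 : -(64 * m) ≤ 100 * m ^ 2 + t' ^ 2 - 3 * s' ^ 2 := by nlinarith [sq_nonneg t']
  have t5 := mul_nonneg (show 0 ≤ -t' by linarith) (sub_nonneg.2 t4)
  have t6 := mul_nonneg (show 0 ≤ t' + 1 by linarith) (show 0 ≤ 64 * m by positivity)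
  nlinarith

theorem top {m t s : ℝ} (hm : 1 ≤ m) (h0 : 0 ≤ t) (h1 : t ≤ 11 * m) :
    t * (100 * m ^ 2 + t ^ 2 - 3 * s ^ 2) - 100 * m ^ 2 ≤ 2500 * m ^ 3 := by
  have t3 : t ^ 2 ≤ (11 * m) ^ 2 := pow_le_pow_left₀ h0 h1 2
  have t4 : 100 * m ^ 2 + t ^ 2 - 3 * s ^ 2 ≤ 221 * m ^ 2 := by nlinarith [sq_nonneg s]
  have t5 := mul_le_mul_of_nonneg_left t4 h0
  have t6 := mul_le_mul_of_nonneg_right h1 (show 0 ≤ 221 * m ^ 2 by positivity)
  have t7 : 0 ≤ m ^ 3 := by positivity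
  nlinarith

/-- The barrier argument in a thin layer. -/
theorem layer {ν : ℂ} (hν : ‖ν‖ = 1) {m : ℕ} (hm : 1 ≤ m) {w : ℤ × ℤ → ℝ} {y : ℤ × ℤ} {c A : ℝ}
    (hA : 0 ≤ A) (h0 : ∀ v, zd v y ≤ 14 * m → 0 ≤ w v)
    (hs : ∀ v, zd v y ≤ 14 * m → c ≤ ht ν v → SupH w v)
    (h1 : ∀ v, zd v y ≤ 14 * m → c + 10 * m ≤ ht ν v → A ≤ w v) (hy : c ≤ ht ν y)
    (hy' : ht ν y < c + 10 * m) : A * (ht ν y - c - 1) ≤ 25 * m * w y := by
  have hm' : (1 : ℝ) ≤ m := by exact_mod_cast hm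
  have hn := sq_one hν
  obtain ⟨τ, hτ⟩ : ∃ τ : ℤ × ℤ → ℝ, ∀ v, τ v = (v.2 - y.2 : ℝ) * ν.re - (v.1 - y.1 : ℝ) * ν.im :=
    ⟨_, fun _ => rfl⟩
  have hΩ : ∀ v, c ≤ ht ν v → ht ν v < c + 10 * m →
      3 * τ v ^ 2 < 100 * m ^ 2 + (ht ν v - c) ^ 2 → zd v y ≤ 13 * m := by
    intro v a1 a2 a3
    have e1 : (v.1 - y.1 : ℝ) ^ 2 + (v.2 - y.2 : ℝ) ^ 2 = (ht ν v - ht ν y) ^ 2 + τ v ^ 2 := by
      rw [hτ]
      unfold ht
      linear_combination (-(v.1 - y.1 : ℝ) ^ 2 - (v.2 - y.2 : ℝ) ^ 2) * hn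
    have e2 : (ht ν v - ht ν y) ^ 2 ≤ (10 * m) ^ 2 := sq_le_sq' (by linarith) (by linarith)
    have e3 : (ht ν v - c) ^ 2 ≤ (10 * m) ^ 2 := sq_le_sq' (by linarith) (by linarith)
    have e4 : (v.1 - y.1 : ℝ) ^ 2 + (v.2 - y.2 : ℝ) ^ 2 ≤ (13 * m) ^ 2 := by nlinarith
    have e5 : |(v.1 - y.1 : ℝ)| ≤ 13 * m :=
      abs_le_of_sq_le_sq (by nlinarith [sq_nonneg (v.2 - y.2 : ℝ)]) (by positivity)
    have e6 : |(v.2 - y.2 : ℝ)| ≤ 13 * m :=
      abs_le_of_sq_le_sq (by nlinarith [sq_nonneg (v.1 - y.1 : ℝ)]) (by positivity)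
    exact zd_le_of (by push_cast; linarith) (by push_cast; linarith)
  have ha : 0 ≤ A / (2500 * m ^ 3) := by positivity
  have key := maxp {v | c ≤ ht ν v ∧ ht ν v < c + 10 * m ∧
      3 * τ v ^ 2 < 100 * m ^ 2 + (ht ν v - c) ^ 2}
    ((box_finite (13 * m + zd y 0)).subset fun v hv => by
      have := hΩ v hv.1 hv.2.1 hv.2.2
      have := GeoA.zd_tri v y 0
      simp only [Set.mem_ofPred_eq]
      omega)
    (fun v => A / (2500 * m ^ 3) * ((ht ν v - c) * (100 * m ^ 2 + (ht ν v - c) ^ 2 -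
      3 * ((v.2 - y.2) * ν.re - (v.1 - y.1) * ν.im) ^ 2) - 100 * m ^ 2) - w v)
    (fun v hv => by
      rw [lap_cub]
      exact neg_nonneg.2 (hs v ((hΩ v hv.1 hv.2.1 hv.2.2).trans (by omega)) hv.1))
    (fun v hv a hn' => by
      obtain ⟨a1, a2, a3⟩ := hv
      have hz : zd (v + st4 a) y ≤ 14 * m := by
        have b1 := hΩ v a1 a2 a3
        have b2 := GeoA.zd_tri (v + st4 a) v y
        have b3 : zd (v + st4 a) v ≤ 1 := by fin_cases a <;> simp [zd, st4]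
        omega
      have b1 : |ht ν (v + st4 a) - ht ν v| ≤ 1 := by
        rw [ht_add, add_sub_cancel_left]
        exact abs_ht_st4 hν a
      have b2 : |τ (v + st4 a) - τ v| ≤ 1 := by
        have r1 : |ν.re| ≤ 1 := abs_le_of_sq_le_sq (by nlinarith [sq_nonneg ν.im]) zero_le_one
        have r2 : |ν.im| ≤ 1 := abs_le_of_sq_le_sq (by nlinarith [sq_nonneg ν.re]) zero_le_one
        rw [abs_le] at r1 r2 ⊢
        rw [hτ, hτ]
        fin_cases a <;> simp [st4] <;> constructor <;> linarith [r1.1, r1.2, r2.1, r2.2]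
      generalize v + st4 a = x at hz b1 b2 hn'
      rw [← hτ]
      rw [abs_le] at b1 b2
      have w0 := h0 x hz
      have fin : (ht ν x - c) * (100 * m ^ 2 + (ht ν x - c) ^ 2 - 3 * τ x ^ 2) ≤ 100 * m ^ 2 →
          A / (2500 * m ^ 3) * ((ht ν x - c) * (100 * m ^ 2 + (ht ν x - c) ^ 2 - 3 * τ x ^ 2) -
            100 * m ^ 2) - w x ≤ 0 := fun h => by
        have := mul_nonneg ha (sub_nonneg.2 h)
        linarith
      by_cases c1 : ht ν x < c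
      · exact fin (bot hm' (sub_nonneg.2 a1) a3 (by linarith) (by linarith [b1.1]) b2.1 b2.2)
      by_cases c2 : ht ν x < c + 10 * m
      · refine fin ?_
        have t1 : 100 * (m : ℝ) ^ 2 + (ht ν x - c) ^ 2 ≤ 3 * τ x ^ 2 := by
          by_contra h
          exact hn' ⟨not_lt.1 c1, c2, not_le.1 h⟩
        have t2 := mul_nonneg (show 0 ≤ ht ν x - c by linarith) (sub_nonneg.2 t1)
        nlinarith
      · have t0 := h1 x hz (not_lt.1 c2)
        have t5 := top (s := τ x) hm' (sub_nonneg.2 (not_lt.1 c1))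
          (show ht ν x - c ≤ 11 * m by linarith [b1.2])
        have t6 := mul_le_mul_of_nonneg_left t5 ha
        rw [div_mul_cancel₀ _ (by positivity)] at t6
        linarith)
    y ⟨hy, hy', by
      rw [hτ]
      simp only [sub_self, zero_mul]
      nlinarith [sq_nonneg (ht ν y - c)]⟩
  simp only [sub_self, zero_mul] at key
  have e1 : 100 * (m : ℝ) ^ 2 * (ht ν y - c - 1) ≤
      (ht ν y - c) * (100 * m ^ 2 + (ht ν y - c) ^ 2 - 3 * 0 ^ 2) - 100 * m ^ 2 := by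
    have := pow_nonneg (sub_nonneg.2 hy) 3
    nlinarith
  have e2 := mul_le_mul_of_nonneg_left e1 ha
  have e3 : A / (2500 * m ^ 3) * (100 * (m : ℝ) ^ 2 * (ht ν y - c - 1)) =
      A * (ht ν y - c - 1) / (25 * m) := by field_simp; ring
  rw [e3] at e2
  have e4 : A * (ht ν y - c - 1) / (25 * m) ≤ w y := by linarith
  rw [div_le_iff₀ (by positivity)] at e4
  linarith

end IN1

open IN1 B1b in
/-- The lemma of Hopf. -/
theorem hopfStmt : HopfStmt := by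
  obtain ⟨c, c0, -, hc⟩ := harn_seg 256
  refine ⟨c, c0, 256, ?_⟩
  intro ρ w ν e w₀ A hν he hw₀ hA hρ h0 hs h1 v hv
  obtain ⟨m, hm⟩ : ∃ m, m = ρ / 128 := ⟨_, rfl⟩
  obtain ⟨k, hk⟩ : ∃ k, k = ρ / 2 := ⟨_, rfl⟩
  push_cast at hρ ⊢
  have r1 : 256 ≤ ρ := by
    have : (256 : ℝ) ≤ ρ := by linarith
    exact_mod_cast this
  have r2 : (128 : ℝ) * m ≤ ρ := by exact_mod_cast (show 128 * m ≤ ρ by omega)
  have r3 : (ρ : ℝ) ≤ 128 * m + 128 := by exact_mod_cast (show ρ ≤ 128 * m + 128 by omega)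
  have r4 : (64 : ℝ) * m ≤ k := by exact_mod_cast (show 64 * m ≤ k by omega)
  have r5 : (2 : ℝ) * k ≤ ρ := by exact_mod_cast (show 2 * k ≤ ρ by omega)
  have r6 : (2 : ℝ) ≤ m := by exact_mod_cast (show 2 ≤ m by omega)
  rw [← hk] at h1
  have hp : zd (k • st4 e) 0 ≤ k := by fin_cases e <;> simp [zd, st4]
  have hp' : 32 * m ≤ ht ν (k • st4 e) := by
    have : ht ν (k • st4 e) = k * ht ν (st4 e) := by simp [ht]; ring
    rw [this]
    nlinarith
  generalize k • st4 e = p at h1 hp hp'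
  have hn := sq_one hν
  have n1 : |ν.re| ≤ 1 := abs_le_of_sq_le_sq (by nlinarith [sq_nonneg ν.im]) zero_le_one
  have n2 : |ν.im| ≤ 1 := abs_le_of_sq_le_sq (by nlinarith [sq_nonneg ν.re]) zero_le_one
  have deep : ∀ x, zd x 0 ≤ k → w₀ + 10 * m ≤ ht ν x → c * A ≤ w x := by
    intro x x1 x2
    refine hc w p x m A hA (by omega) ?_ (fun u θ t0 t1 u1 u2 => ?_)
      (fun u hu => h1 u (by omega)) x (by simp [zd])
    · have := GeoA.zd_tri x 0 p
      have := GeoA.zd_comm 0 p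
      omega
    · obtain ⟨a1, a2⟩ := abs_le_of x1
      obtain ⟨a3, a4⟩ := abs_le_of hp
      simp only [Prod.fst_zero, Prod.snd_zero, Int.cast_zero, sub_zero] at a1 a2 a3 a4
      have cv : ∀ a b : ℝ, |a| ≤ k → |b| ≤ k → |a + θ * (b - a)| ≤ k := fun a b ha hb => by
        rw [abs_le] at ha hb ⊢
        constructor <;> nlinarith [ha.1, ha.2, hb.1, hb.2]
      have b1 := abs_le.1 (cv _ _ a3 a1)
      have b2 := abs_le.1 (cv _ _ a4 a2)
      have b3 := abs_le.1 u1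
      have b4 := abs_le.1 u2
      have hz : zd u 0 ≤ ρ := by
        refine zd_le_of ?_ ?_ <;>
          simp only [Prod.fst_zero, Prod.snd_zero, Int.cast_zero, sub_zero] <;> rw [abs_lt] <;>
          constructor <;> linarith [b1.1, b1.2, b2.1, b2.2, b3.1, b3.2, b4.1, b4.2]
      refine ⟨h0 u (by omega), hs u hz ?_⟩
      have e1 : ht ν u = (1 - θ) * ht ν p + θ * ht ν x +
          ((u.1 - (p.1 + θ * (x.1 - p.1))) * ν.re + (u.2 - (p.2 + θ * (x.2 - p.2))) * ν.im) := by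
        unfold ht
        ring
      have e2 : |(u.1 - (p.1 + θ * (x.1 - p.1))) * ν.re| ≤ (3 * m + 1) * 1 := by
        rw [abs_mul]
        exact mul_le_mul u1 n1 (abs_nonneg _) (by positivity)
      have e3 : |(u.2 - (p.2 + θ * (x.2 - p.2))) * ν.im| ≤ (3 * m + 1) * 1 := by
        rw [abs_mul]
        exact mul_le_mul u2 n2 (abs_nonneg _) (by positivity)
      have e4 := mul_le_mul_of_nonneg_left x2 t0
      have e5 := mul_le_mul_of_nonneg_left (show w₀ + 10 * m ≤ ht ν p by linarith)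
        (sub_nonneg.2 t1)
      linarith [(abs_le.1 e2).1, (abs_le.1 e3).1]
  have w0 := h0 v (by omega)
  have cA : 0 ≤ c * A := by positivity
  have hρ0 : (0 : ℝ) ≤ ρ := by positivity
  by_cases c1 : ht ν v < w₀ + 1
  · have := mul_nonneg cA (show 0 ≤ w₀ + 256 - ht ν v by linarith)
    have := mul_nonneg hρ0 w0
    linarith
  by_cases c2 : ht ν v < w₀ + 10 * m
  · have tri : ∀ u, zd u v ≤ 14 * m → zd u 0 ≤ k := fun u hu => by
      have := GeoA.zd_tri u v 0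
      omega
    have e1 := layer hν (show 1 ≤ m by omega) cA (fun u hu => h0 u (by have := tri u hu; omega))
      (fun u hu => hs u (by have := tri u hu; omega)) (fun u hu => deep u (tri u hu))
      (y := v) (by linarith) c2
    have e2 := mul_le_mul_of_nonneg_right (show 25 * (m : ℝ) ≤ ρ by linarith) w0
    nlinarith
  · have e1 := mul_le_mul_of_nonneg_left (deep v (by omega) (not_lt.1 c2)) hρ0
    have e2 := (abs_le.1 (abs_ht_le hν v)).2
    have e3 : (4 : ℝ) * zd v 0 ≤ ρ := by exact_mod_cast hv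
    have e4 := mul_le_mul_of_nonneg_left (show ht ν v - w₀ - 256 ≤ ρ by linarith) cA
    linarith

end Vale.Agent.P144Z
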