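import Vale.Agent.P144D.I.DefsN
import Vale.Agent.P144D.B.Lin

/-!
The weak Harnack inequality for superharmonic functions on the plane lattice.
-/

namespace Vale.Agent.P144Z

open Finset

namespace IN1

/-- The profile of the barrier. -/
theorem prof (K m : ℕ) (hK : 1 ≤ K) (hm : 1 ≤ m) : ∃ (g : ℕ → ℝ) (μ : ℝ),
    (∀ n ≤ (K + 1) * m, 0 ≤ g n) ∧ g ((K + 1) * m) = 0 ∧ (∀ n ≤ m, g n ≤ 3) ∧
    -μ * g 0 ≤ g 1 + g 1 - 2 * g 0 ∧
    (∀ n, n + 1 < (K + 1) * m → -μ * g (n + 1) ≤ g (n + 2) + g n - 2 * g (n + 1)) ∧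
    (∀ n, m ≤ n → n + 1 < (K + 1) * m → μ * g (n + 1) ≤ g (n + 2) + g n - 2 * g (n + 1)) ∧
    ∀ n ≤ K * m, Real.exp (-2) ^ K / 2 ≤ g n := by
  have hm' : (1 : ℝ) ≤ m := by exact_mod_cast hm
  obtain ⟨l, hl⟩ : ∃ l : ℝ, l = m / (m + 2) := ⟨_, rfl⟩
  obtain ⟨μ, hμ⟩ : ∃ μ : ℝ, μ = 4 / (m * (m + 2)) := ⟨_, rfl⟩
  have l0 : 0 < l := by rw [hl]; positivity
  have l1 : l ≤ 1 := by rw [hl, div_le_one (by positivity)]; linarith
  have μ0 : 0 < μ := by rw [hμ]; positivity
  have lμ : l ^ 2 + 1 - 2 * l = μ * l := by rw [hl, hμ]; field_simp; ring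
  have li : l * (1 + 2 / m) = 1 := by rw [hl]; field_simp
  have lm : l ^ m * (1 + 2 / m) ^ m = 1 := by rw [← mul_pow, li, one_pow]
  have lm1 : l ^ m ≤ 1 / 2 := by
    have h := one_add_mul_le_pow (a := (2 / m : ℝ)) (by
      have : (0 : ℝ) ≤ 2 / m := by positivity
      linarith) m
    have h2 : (m : ℝ) * (2 / m) = 2 := by field_simp
    have h3 := mul_le_mul_of_nonneg_left h (pow_pos l0 m).le
    have h4 := pow_pos l0 m
    rw [h2] at h3
    linarith
  have lm2 : Real.exp (-2) ≤ l ^ m := by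
    have h : (1 + 2 / m : ℝ) ^ m ≤ Real.exp (2 / m) ^ m :=
      pow_le_pow_left₀ (by positivity) (by linarith [Real.add_one_le_exp (2 / m : ℝ)]) m
    rw [← Real.exp_nat_mul, show (m : ℝ) * (2 / m) = 2 by field_simp] at h
    have h3 := mul_le_mul_of_nonneg_left h (pow_pos l0 m).le
    rw [lm] at h3
    rw [Real.exp_neg, inv_le_iff_one_le_mul₀ (Real.exp_pos 2)]
    exact h3
  obtain ⟨R, hR⟩ : ∃ R, R = (K + 1) * m := ⟨_, rfl⟩
  have hR1 : R = K * m + m := by rw [hR]; ring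
  have hKm : m ≤ K * m := Nat.le_mul_of_pos_left m hK
  have mono : ∀ a b : ℕ, a ≤ b → l ^ b ≤ l ^ a := fun a b h => pow_le_pow_of_le_one l0.le l1 h
  obtain ⟨g₀, hg₀⟩ : ∃ g₀ : ℝ, g₀ = l ^ m - l ^ R := ⟨_, rfl⟩
  have g1 : l ^ m / 2 ≤ g₀ := by
    have h := mono (m + m) R (by omega)
    rw [pow_add] at h
    have := mul_le_mul_of_nonneg_left lm1 (pow_pos l0 m).le
    linarith
  have g2 : 0 ≤ g₀ := le_trans (by positivity) g1
  have g3 : g₀ ≤ 1 := by
    have := pow_pos l0 R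
    linarith
  rw [← hR]
  obtain ⟨g, hg⟩ : ∃ g : ℕ → ℝ, ∀ n, g n =
      if n ≤ m then g₀ + μ * g₀ / 2 * ((m : ℝ) ^ 2 - (n : ℝ) ^ 2) else l ^ n - l ^ R :=
    ⟨_, fun _ => rfl⟩
  have ga : ∀ n ≤ m, g n = g₀ + μ * g₀ / 2 * ((m : ℝ) ^ 2 - (n : ℝ) ^ 2) := fun n h => by
    rw [hg, if_pos h]
  have gb : ∀ n, m ≤ n → g n = l ^ n - l ^ R := fun n h => by
    rcases h.eq_or_lt with rfl | h
    · rw [ga _ le_rfl, hg₀]; ring
    · rw [hg, if_neg (by omega)]
  have gc : ∀ n ≤ m, g₀ ≤ g n := fun n h => by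
    have h1 : (n : ℝ) ≤ m := by exact_mod_cast h
    have h2 : 0 ≤ (m : ℝ) ^ 2 - (n : ℝ) ^ 2 := by nlinarith [Nat.cast_nonneg (α := ℝ) n]
    rw [ga n h]
    have : 0 ≤ μ * g₀ / 2 * ((m : ℝ) ^ 2 - (n : ℝ) ^ 2) := by positivity
    linarith
  have gd : ∀ n ≤ R, 0 ≤ g n := fun n h => by
    rcases le_total n m with h1 | h1
    · exact g2.trans (gc n h1)
    · rw [gb n h1]
      linarith [mono n R h]
  have ge : ∀ n, m ≤ n → n + 1 < R → μ * g (n + 1) ≤ g (n + 2) + g n - 2 * g (n + 1) := by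
    intro n h1 _
    rw [gb n h1, gb (n + 1) (by omega), gb (n + 2) (by omega)]
    have e1 : l ^ (n + 2) + l ^ n - 2 * l ^ (n + 1) = μ * l ^ (n + 1) := by
      linear_combination l ^ n * lμ
    have e2 : 0 ≤ μ * l ^ R := by positivity
    linarith
  refine ⟨g, μ, gd, by rw [gb R (by omega), sub_self], fun n h => ?_, ?_, fun n h => ?_, ge,
    fun n h => ?_⟩
  · rw [ga n h]
    have e1 : μ * (m : ℝ) ^ 2 ≤ 4 := by
      rw [hμ, div_mul_eq_mul_div, div_le_iff₀ (by positivity)]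
      nlinarith
    have e2 : 0 ≤ μ * g₀ / 2 * (n : ℝ) ^ 2 := by positivity
    have e3 := mul_le_mul_of_nonneg_left e1 g2
    nlinarith
  · have e1 := mul_le_mul_of_nonneg_left (gc 0 (by omega)) μ0.le
    have e2 := ga 0 (by omega)
    have e3 := ga 1 hm
    push_cast at e2 e3
    nlinarith
  · rcases lt_trichotomy (n + 1) m with h1 | h1 | h1
    · have e1 := mul_le_mul_of_nonneg_left (gc (n + 1) h1.le) μ0.le
      have e2 := ga n (by omega)
      have e3 := ga (n + 1) h1.le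
      have e4 := ga (n + 2) h1
      push_cast at e3 e4
      nlinarith
    · have e2 := ga n (by omega)
      have e3 := ga (n + 1) h1.le
      have e4 := gb (n + 2) (by omega)
      have e5 : (m : ℝ) = n + 1 := by exact_mod_cast h1.symm
      have e6 : l ^ (n + 2) = l ^ m * l := by rw [← h1]; ring
      have e7 : (1 - l) * (m + 2) = 2 := by rw [hl]; field_simp; ring
      have e8 : μ * m * (m + 2) = 4 := by rw [hμ]; field_simp
      have e9 : 2 * (1 - l) = μ * m := by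
        refine mul_right_cancel₀ (show (m + 2 : ℝ) ≠ 0 by positivity) ?_
        linarith
      have e10 := mul_le_mul_of_nonneg_left g1 (show 0 ≤ μ * m by positivity)
      have e11 : 0 ≤ μ * g₀ := by positivity
      push_cast at e3
      rw [e2, e3, e4, e6, e5]
      rw [e5] at e9 e10
      have e12 : l ^ m * l = l ^ m - l ^ m * (μ * (n + 1)) / 4 * 1 - l ^ m * (μ * (n + 1)) / 4 := by
        rw [← e9]; ring
      nlinarith
    · have e1 := ge n (by omega) h
      have e2 := mul_nonneg μ0.le (gd (n + 1) h.le)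
      linarith
  · have e1 : Real.exp (-2) ^ K ≤ l ^ (K * m) := by
      rw [mul_comm, pow_mul]
      exact pow_le_pow_left₀ (Real.exp_pos _).le lm2 K
    have e2 : l ^ R ≤ l ^ (K * m) / 2 := by
      rw [hR1, pow_add]
      have := mul_le_mul_of_nonneg_left lm1 (pow_pos l0 (K * m)).le
      linarith
    rcases le_total n m with h1 | h1
    · have := gc n h1
      have := mono m (K * m) hKm
      linarith
    · rw [gb n h1]
      have := mono n (K * m) h
      linarith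

theorem nb (g : ℕ → ℝ) (x : ℤ) : (x.natAbs = 0 ∧ g (x + 1).natAbs + g (x + -1).natAbs = g 1 + g 1) ∨
    ∃ n, x.natAbs = n + 1 ∧ g (x + 1).natAbs + g (x + -1).natAbs = g (n + 2) + g n := by
  rcases lt_trichotomy x 0 with h | h | h
  · refine Or.inr ⟨x.natAbs - 1, by omega, ?_⟩
    rw [show (x + 1).natAbs = x.natAbs - 1 by omega,
      show (x + -1).natAbs = x.natAbs - 1 + 2 by omega, add_comm]
  · subst h
    exact Or.inl ⟨rfl, rfl⟩
  · refine Or.inr ⟨x.natAbs - 1, by omega, ?_⟩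
    rw [show (x + -1).natAbs = x.natAbs - 1 by omega,
      show (x + 1).natAbs = x.natAbs - 1 + 2 by omega]

theorem harn0 (K : ℕ) (hK : 1 ≤ K) (m : ℕ) (w : ℤ × ℤ → ℝ) (A : ℝ) (hm : 1 ≤ m) (hA : 0 ≤ A)
    (h0 : ∀ v, zd v 0 ≤ (K + 1) * m → 0 ≤ w v) (hs : ∀ v, zd v 0 ≤ (K + 1) * m → SupH w v)
    (h1 : ∀ v, zd v 0 ≤ m → A ≤ w v) (v : ℤ × ℤ) (hv : zd v 0 ≤ K * m) :
    (Real.exp (-2) ^ K / 6) ^ 2 * A ≤ w v := by
  obtain ⟨g, μ, g0, gR, g3, gz, gl, gu, gc⟩ := prof K m hK hm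
  have hR : (K + 1) * m = K * m + m := by ring
  generalize (K + 1) * m = R at *
  have zz : ∀ v : ℤ × ℤ, zd v 0 = max v.1.natAbs v.2.natAbs := fun v => by simp [zd]
  have d1 : ∀ x : ℤ, x.natAbs < R →
      -μ * g x.natAbs ≤ g (x + 1).natAbs + g (x + -1).natAbs - 2 * g x.natAbs := fun x hx => by
    rcases nb g x with ⟨e1, e2⟩ | ⟨n, e1, e2⟩
    · rw [e2, e1]; exact gz
    · rw [e2, e1]; exact gl n (by omega)
  have d2 : ∀ x : ℤ, m < x.natAbs → x.natAbs < R →
      μ * g x.natAbs ≤ g (x + 1).natAbs + g (x + -1).natAbs - 2 * g x.natAbs := fun x hx hx' => by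
    rcases nb g x with ⟨e1, e2⟩ | ⟨n, e1, e2⟩
    · omega
    · rw [e2, e1]; exact gu n (by omega) (by omega)
  have hq : (0 : ℝ) < Real.exp (-2) ^ K := by positivity
  have hq1 : Real.exp (-2) ^ K ≤ 1 := pow_le_one₀ (Real.exp_pos _).le (by simp)
  by_cases hvm : zd v 0 ≤ m
  · refine le_trans ?_ (h1 v hvm)
    have : (Real.exp (-2) ^ K / 6) ^ 2 ≤ 1 := by nlinarith
    nlinarith
  have key := B1b.maxp {v | m < zd v 0 ∧ zd v 0 < R}
    ((B1b.box_finite R).subset fun v hv => hv.2.le)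
    (fun v => A / 9 * (g v.1.natAbs * g v.2.natAbs) - w v)
    (fun v hv => by
      have e1 := hs v hv.2.le
      obtain ⟨a1, a2⟩ := hv
      rw [zz] at a1 a2
      have x1 := g0 v.1.natAbs (by omega)
      have x2 := g0 v.2.natAbs (by omega)
      have e2 : 0 ≤ (g (v.1 + 1).natAbs + g (v.1 + -1).natAbs - 2 * g v.1.natAbs) * g v.2.natAbs +
          g v.1.natAbs * (g (v.2 + 1).natAbs + g (v.2 + -1).natAbs - 2 * g v.2.natAbs) := by
        rcases (show m < v.1.natAbs ∨ m < v.2.natAbs by omega) with h | h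
        · have b1 := mul_le_mul_of_nonneg_right (d2 v.1 h (by omega)) x2
          have b2 := mul_le_mul_of_nonneg_left (d1 v.2 (by omega)) x1
          linarith
        · have b1 := mul_le_mul_of_nonneg_right (d1 v.1 (by omega)) x2
          have b2 := mul_le_mul_of_nonneg_left (d2 v.2 h (by omega)) x1
          linarith
      have e3 := mul_nonneg (show 0 ≤ A / 9 by positivity) e2
      simp only [SupH, B1b.lap, Fin.sum_univ_four] at e1 ⊢
      simp only [st4, Matrix.cons_val_zero, Matrix.cons_val_one, Matrix.cons_val_two,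
        Matrix.cons_val_three, Matrix.tail_cons, Matrix.head_cons, Prod.fst_add, Prod.snd_add,
        add_zero] at e1 ⊢
      linarith)
    (fun v hv a hn => by
      have hz : zd (v + st4 a) 0 ≤ R := (B1b.zd_st4 v a).trans hv.2
      generalize v + st4 a = x at hz hn
      by_cases hx : zd x 0 ≤ m
      · have e1 := h1 x hx
        rw [zz] at hx
        have e2 : g x.1.natAbs * g x.2.natAbs ≤ 3 * 3 :=
          mul_le_mul (g3 _ (by omega)) (g3 _ (by omega)) (g0 _ (by omega)) (by norm_num)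
        have e3 := mul_le_mul_of_nonneg_left e2 (show 0 ≤ A / 9 by positivity)
        linarith
      · have e1 := h0 x hz
        have e2 : zd x 0 = R := by
          by_contra h
          exact hn ⟨not_le.1 hx, lt_of_le_of_ne hz h⟩
        rw [zz] at e2
        have e3 : g x.1.natAbs * g x.2.natAbs = 0 := by
          rcases (show x.1.natAbs = R ∨ x.2.natAbs = R by omega) with h | h <;> simp [h, gR]
        rw [e3]
        linarith)
    v ⟨not_le.1 hvm, by omega⟩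
  rw [zz] at hv
  have e2 : Real.exp (-2) ^ K / 2 * (Real.exp (-2) ^ K / 2) ≤ g v.1.natAbs * g v.2.natAbs :=
    mul_le_mul (gc _ (by omega)) (gc _ (by omega)) (by positivity) (g0 _ (by omega))
  have e3 := mul_le_mul_of_nonneg_left e2 (show 0 ≤ A / 9 by positivity)
  nlinarith

theorem zd_shift (v p : ℤ × ℤ) : zd (v + p) p = zd v 0 := by simp [zd]

/-- The weak Harnack inequality with an explicit constant. -/
theorem harn (K m : ℕ) (w : ℤ × ℤ → ℝ) (p : ℤ × ℤ) (A : ℝ) (hm : 1 ≤ m) (hA : 0 ≤ A)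
    (h0 : ∀ v, zd v p ≤ (K + 1) * m → 0 ≤ w v) (hs : ∀ v, zd v p ≤ (K + 1) * m → SupH w v)
    (h1 : ∀ v, zd v p ≤ m → A ≤ w v) (v : ℤ × ℤ) (hv : zd v p ≤ K * m) :
    (Real.exp (-2) ^ K / 6) ^ 2 * A ≤ w v := by
  rcases Nat.eq_zero_or_pos K with rfl | hK
  · refine le_trans ?_ (h1 v (by omega))
    norm_num
    linarith
  · obtain ⟨u, rfl⟩ : ∃ u, v = u + p := ⟨v - p, by abel⟩
    refine harn0 K hK m (fun u => w (u + p)) A hm hA (fun v h => h0 _ (by rwa [zd_shift]))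
      (fun v h => ?_) (fun v h => h1 _ (by rwa [zd_shift])) u (by rwa [zd_shift] at hv)
    have := hs (v + p) (by rwa [zd_shift])
    simpa only [SupH, add_right_comm v p] using this

end IN1

/-- The weak Harnack inequality. -/
theorem harnStmt : HarnStmt := fun K => ⟨(Real.exp (-2) ^ K / 6) ^ 2, by positivity,
  fun m w p A hm hA h0 hs h1 => IN1.harn K m w p A hm hA (fun v h => h0 v (by omega)) hs h1⟩

/-- The Harnack inequality along a chain of squares of varying sizes. -/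
theorem harn_chain (K : ℕ) : ∃ c > (0 : ℝ), c ≤ 1 ∧ ∀ (w : ℤ × ℤ → ℝ) (x : ℕ → ℤ × ℤ) (m : ℕ → ℕ)
    (n : ℕ) (A : ℝ), 0 ≤ A → (∀ i < n, 1 ≤ m i) →
    (∀ i < n, zd (x (i + 1)) (x i) + m (i + 1) ≤ K * m i) →
    (∀ i < n, ∀ v, zd v (x i) ≤ (K + 1) * m i → 0 ≤ w v ∧ SupH w v) →
    (∀ v, zd v (x 0) ≤ m 0 → A ≤ w v) → ∀ v, zd v (x n) ≤ m n → c ^ n * A ≤ w v := by
  have hq1 : Real.exp (-2) ^ K ≤ 1 := pow_le_one₀ (Real.exp_pos _).le (by simp)
  have hq : (0 : ℝ) < Real.exp (-2) ^ K := by positivity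
  refine ⟨(Real.exp (-2) ^ K / 6) ^ 2, by positivity, by nlinarith, ?_⟩
  intro w x m n A hA hm hx hw h1
  induction n with
  | zero => simpa using h1
  | succ n ih =>
    intro v hv
    have h2 := ih (fun i h => hm i (by omega)) (fun i h => hx i (by omega))
      (fun i h => hw i (by omega))
    have h3 := IN1.harn K (m n) w (x n) _ (hm n (by omega)) (by positivity)
      (fun v h => (hw n (by omega) v h).1) (fun v h => (hw n (by omega) v h).2) h2 v
      (by have := GeoA.zd_tri v (x (n + 1)) (x n); have := hx n (by omega); omega)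
    rw [pow_succ]
    linarith

end Vale.Agent.P144Z
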